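import Mathlib

/-!
P208: the qualitative and the uniform form of the dimension reduction question agree, and both are
decided by sets made of a point and a sequence converging to it.
-/

namespace Vale.Agent.Results.P208.UniformForm

open Metric Set

variable {Hil : Type} [NormedAddCommGroup Hil]

/-- Doubling with constant at most `N`, the centres taken in the set. -/
def Doubling (s : Set Hil) (N : ℕ) : Prop :=
  ∀ x ∈ s, ∀ r : ℝ, 0 < r → ∃ t : Finset Hil, t.card ≤ N ∧ ↑t ⊆ s ∧
    ∀ y ∈ s, dist y x ≤ r → ∃ c ∈ t, dist y c ≤ r / 2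

/-- A bi-Lipschitz embedding into `ℝ^k` with distortion at most `D`. -/
def Embeds (s : Set Hil) (k : ℕ) (D : ℝ) : Prop :=
  ∃ (f : Hil → EuclideanSpace ℝ (Fin k)) (a : ℝ), 0 < a ∧ ∀ x ∈ s, ∀ y ∈ s,
    a * dist x y ≤ dist (f x) (f y) ∧ dist (f x) (f y) ≤ D * a * dist x y

/-- A doubling set restricted to a subset. -/
theorem Doubling.subset {s F : Set Hil} {N : ℕ} (h : Doubling s N) (hF : F ⊆ s) :
    Doubling F (N * N) := by
  classical
  intro x hx r hr
  obtain ⟨t, ht, hts, hcov⟩ := h x (hF hx) r hr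
  have h2 : ∀ c : Hil, ∃ u : Finset Hil, c ∈ t → u.card ≤ N ∧
      ∀ y ∈ s, dist y c ≤ r / 2 → ∃ e ∈ u, dist y e ≤ r / 4 := by
    intro c
    by_cases hc : c ∈ t
    · obtain ⟨u, hu, -, hu2⟩ := h c (hts hc) (r / 2) (by linarith)
      exact ⟨u, fun _ => ⟨hu, fun y hy hd => by
        obtain ⟨e, he, hed⟩ := hu2 y hy hd; exact ⟨e, he, by linarith⟩⟩⟩
    · exact ⟨∅, fun hc' => absurd hc' hc⟩
  choose u hu using h2
  set v := (t.biUnion u).filter fun e => ∃ y ∈ F, dist y e ≤ r / 4
  have hv : ∀ e : Hil, ∃ z : Hil, e ∈ v → z ∈ F ∧ dist z e ≤ r / 4 := by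
    intro e
    by_cases he : e ∈ v
    · obtain ⟨z, hz, hze⟩ := (Finset.mem_filter.1 he).2
      exact ⟨z, fun _ => ⟨hz, hze⟩⟩
    · exact ⟨e, fun he' => absurd he' he⟩
  choose z hz using hv
  refine ⟨v.image z, ?_, ?_, ?_⟩
  · calc (v.image z).card ≤ (t.biUnion u).card :=
        Finset.card_image_le.trans (Finset.card_filter_le _ _)
      _ ≤ ∑ c ∈ t, (u c).card := Finset.card_biUnion_le
      _ ≤ t.card * N := Finset.sum_le_card_nsmul t _ N fun c hc => (hu c hc).1
      _ ≤ N * N := Nat.mul_le_mul_right N ht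
  · intro a ha
    obtain ⟨e, he, rfl⟩ := Finset.mem_image.1 ha
    exact (hz e he).1
  · intro y hy hd
    obtain ⟨c, hc, hyc⟩ := hcov y (hF hy) hd
    obtain ⟨e, he, hye⟩ := (hu c hc).2 y (hF hy) hyc
    have hev : e ∈ v := Finset.mem_filter.2 ⟨Finset.mem_biUnion.2 ⟨c, hc, he⟩, y, hy, hye⟩
    refine ⟨z e, Finset.mem_image_of_mem z hev, ?_⟩
    linarith [dist_triangle_right y (z e) e, (hz e hev).2]

/-- Embeddings may be placed in larger dimension and with larger distortion. -/
theorem Embeds.mono {s : Set Hil} {k m : ℕ} {D D' : ℝ} (h : Embeds s k D) (hk : k ≤ m)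
    (hD : D ≤ D') : Embeds s m D' := by
  obtain ⟨f, a, ha, hf⟩ := h
  let pad : EuclideanSpace ℝ (Fin k) → EuclideanSpace ℝ (Fin m) := fun w =>
    WithLp.toLp 2 fun i => if h : (i : ℕ) < k then w ⟨i, h⟩ else 0
  have hpad : ∀ w w', dist (pad w) (pad w') = dist w w' := by
    intro w w'
    rw [EuclideanSpace.dist_eq, EuclideanSpace.dist_eq]
    congr 1
    symm
    refine Finset.sum_of_injOn (Fin.castLE hk) (Fin.castLE_injective hk).injOn
      (by simp [Set.MapsTo]) (fun i _ hi => ?_) (fun i _ => ?_)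
    · have : ¬(i : ℕ) < k := fun hik => hi ⟨⟨i, hik⟩, by simp, by ext; rfl⟩
      simp [pad, this]
    · simp [pad]
  refine ⟨fun x => pad (f x), a, ha, fun x hx y hy => ?_⟩
  rw [hpad]
  exact ⟨(hf x hx y hy).1, (hf x hx y hy).2.trans
    (mul_le_mul_of_nonneg_right (mul_le_mul_of_nonneg_right hD ha.le) dist_nonneg)⟩

/-- Embeddability is decided by the finite subsets. -/
theorem embeds_of_finite {s : Set Hil} {k : ℕ} {D : ℝ}
    (h : ∀ F : Set Hil, F.Finite → F ⊆ s → Embeds F k D) : Embeds s k D := by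
  classical
  rcases s.eq_empty_or_nonempty with rfl | ⟨x₀, hx₀⟩
  · exact h ∅ Set.finite_empty subset_rfl
  let E := EuclideanSpace ℝ (Fin k)
  let Z : Set (s → E) := Set.univ.pi fun x => closedBall (0 : E) (D * dist (x : Hil) x₀)
  let C : s × s → Set (s → E) := fun p => {g | dist (p.1 : Hil) p.2 ≤ dist (g p.1) (g p.2) ∧
    dist (g p.1) (g p.2) ≤ D * dist (p.1 : Hil) p.2}
  have hZ : IsCompact Z := isCompact_univ_pi fun x => isCompact_closedBall _ _
  have hC : ∀ p, IsClosed (C p) := fun p => by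
    have hcont : Continuous fun g : s → E => dist (g p.1) (g p.2) :=
      (continuous_apply p.1).dist (continuous_apply p.2)
    exact (isClosed_le (f := fun _ : s → E => dist (p.1 : Hil) p.2) continuous_const hcont).inter
      (isClosed_le (g := fun _ : s → E => D * dist (p.1 : Hil) p.2) hcont continuous_const)
  have hfin : ∀ u : Finset (s × s), (Z ∩ ⋂ p ∈ u, C p).Nonempty := by
    intro u
    set F : Set Hil := insert x₀ ↑((u.image fun p => (p.1 : Hil)) ∪ u.image fun p => (p.2 : Hil))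
    have hFs : F ⊆ s := by
      refine Set.insert_subset hx₀ fun a ha => ?_
      simp only [Finset.coe_union, Finset.coe_image, Set.mem_union, Set.mem_image] at ha
      rcases ha with ⟨p, -, rfl⟩ | ⟨p, -, rfl⟩
      exacts [p.1.2, p.2.2]
    obtain ⟨f, a, ha, hf⟩ := h F ((Finset.finite_toSet _).insert _) hFs
    let g : s → E := fun x => if (x : Hil) ∈ F then a⁻¹ • (f x - f x₀) else 0
    have hg : ∀ x y : s, (x : Hil) ∈ F → (y : Hil) ∈ F →
        dist (g x) (g y) = a⁻¹ * dist (f x) (f y) := fun x y hx hy => by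
      simp only [g, if_pos hx, if_pos hy]
      rw [dist_smul₀, dist_sub_right, Real.norm_of_nonneg (inv_nonneg.2 ha.le)]
    refine ⟨g, fun x _ => ?_, Set.mem_iInter₂.2 fun p hp => ?_⟩
    · rw [mem_closedBall, dist_zero_right]
      by_cases hx : (x : Hil) ∈ F
      · simp only [g, if_pos hx, norm_smul, Real.norm_of_nonneg (inv_nonneg.2 ha.le)]
        rw [← dist_eq_norm, inv_mul_le_iff₀ ha]
        exact (hf x hx x₀ (Set.mem_insert _ _)).2.trans_eq (by ring)
      · simp only [g, if_neg hx, norm_zero]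
        rcases eq_or_ne (x : Hil) x₀ with he | he
        · exact absurd (he ▸ Set.mem_insert x₀ _) hx
        obtain ⟨f', a', ha', hf'⟩ := h {(x : Hil), x₀} (Set.toFinite _)
          (Set.insert_subset x.2 (Set.singleton_subset_iff.2 hx₀))
        have h1 := hf' x (by simp) x₀ (by simp)
        have hd := dist_pos.2 he
        have h2 : a' * dist (x : Hil) x₀ ≤ a' * (D * dist (x : Hil) x₀) := by
          linarith [h1.1.trans h1.2]
        have := le_of_mul_le_mul_left h2 ha'
        linarith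
    · have h1 : (p.1 : Hil) ∈ F := Set.mem_insert_of_mem _ (Finset.mem_coe.2
        (Finset.mem_union_left _ (Finset.mem_image_of_mem (fun q : s × s => (q.1 : Hil)) hp)))
      have h2 : (p.2 : Hil) ∈ F := Set.mem_insert_of_mem _ (Finset.mem_coe.2
        (Finset.mem_union_right _ (Finset.mem_image_of_mem (fun q : s × s => (q.2 : Hil)) hp)))
      obtain ⟨h3, h4⟩ := hf _ h1 _ h2
      simp only [C, Set.mem_ofPred_eq, hg _ _ h1 h2, le_inv_mul_iff₀ ha, inv_mul_le_iff₀ ha]
      exact ⟨h3, h4.trans_eq (by ring)⟩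
  obtain ⟨g, -, hg⟩ := hZ.inter_iInter_nonempty C hC hfin
  refine ⟨fun x => if hx : x ∈ s then g ⟨x, hx⟩ else 0, 1, one_pos, fun x hx y hy => ?_⟩
  have h5 := Set.mem_iInter.1 hg (⟨x, hx⟩, ⟨y, hy⟩)
  simp only [dif_pos hx, dif_pos hy, one_mul, mul_one]
  exact h5

/-- Gluing: pieces at geometrically decreasing distances from the origin. -/
theorem glue [NormedSpace ℝ Hil] [Nontrivial Hil] {N : ℕ}
    (hN : ∀ (k : ℕ) (D : ℝ), ∃ s : Set Hil, Doubling s N ∧ ¬ Embeds s k D) :
    ∃ (S : Set Hil) (M : ℕ), (0 : Hil) ∈ S ∧ (∀ η : ℝ, 0 < η → {x ∈ S | η ≤ ‖x‖}.Finite) ∧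
      Doubling S M ∧ ∀ (k : ℕ) (D : ℝ), ¬ Embeds S k D := by
  classical
  obtain ⟨unit₀, norm_unit₀⟩ := exists_norm_eq (E := Hil) zero_le_one
  have hF : ∀ m : ℕ, ∃ F : Finset Hil, Doubling (F : Set Hil) (N * N) ∧ ¬ Embeds (F : Set Hil) m m := by
    intro m
    obtain ⟨s, hs, hne⟩ := hN m m
    by_contra hcon
    refine hne (embeds_of_finite fun F hF hFs => ?_)
    by_contra hE
    exact hcon ⟨hF.toFinset, by rw [hF.coe_toFinset]; exact ⟨hs.subset hFs, hE⟩⟩
  choose F hFd hFe using hF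
  have hne : ∀ m, (F m).Nonempty := fun m => Finset.nonempty_iff_ne_empty.2 fun he =>
    hFe m (by rw [he]; exact ⟨fun _ => 0, 1, one_pos, by simp⟩)
  choose b hb using hne
  set ρ : ℕ → ℝ := fun m => (1 / 8 : ℝ) ^ m
  have hρ : ∀ m, 0 < ρ m := fun m => by positivity
  set R : ℕ → ℝ := fun m => 1 + ∑ y ∈ F m, dist y (b m)
  have hR : ∀ m, 0 < R m := fun m => by positivity
  set c : ℕ → ℝ := fun m => ρ m / (8 * R m)
  have hc : ∀ m, 0 < c m := fun m => div_pos (hρ m) (by linarith [hR m])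
  set φ : ℕ → Hil → Hil := fun m y => c m • (y - b m) + ρ m • unit₀
  have hφ : ∀ m y z, dist (φ m y) (φ m z) = c m * dist y z := fun m y z => by
    rw [dist_add_right, dist_smul₀, dist_sub_right, Real.norm_of_nonneg (hc m).le]
  set G : ℕ → Set Hil := fun m => φ m '' ↑(F m)
  have hnear : ∀ m, ∀ x ∈ G m, dist x (ρ m • unit₀) ≤ ρ m / 8 := by
    rintro m x ⟨y, hy, rfl⟩
    have e : ρ m • unit₀ = φ m (b m) := by simp [φ]
    have h1 : dist y (b m) ≤ R m := by
      have := Finset.single_le_sum (f := fun y => dist y (b m)) (fun _ _ => dist_nonneg) hy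
      simp only [R]; linarith
    calc dist (φ m y) (ρ m • unit₀) = c m * dist y (b m) := by rw [e, hφ]
      _ ≤ c m * R m := mul_le_mul_of_nonneg_left h1 (hc m).le
      _ = ρ m / 8 := by have := (hR m).ne'; simp only [c]; field_simp
  have hnorm : ∀ m, ∀ x ∈ G m, ‖x‖ ≤ 9 / 8 * ρ m := fun m x hx => by
    have h1 := hnear m x hx
    have h2 := norm_le_norm_add_norm_sub' x (ρ m • unit₀)
    rw [norm_smul, norm_unit₀, mul_one, Real.norm_of_nonneg (hρ m).le, ← dist_eq_norm] at h2
    linarith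
  have hsep : ∀ m m', m < m' → ∀ x ∈ G m, ∀ y ∈ G m', ρ m / 2 ≤ dist x y := by
    intro m m' hmm x hx y hy
    have h1 := hnear m x hx
    have h2 := hnorm m' y hy
    have h3 : ρ m' ≤ ρ m / 8 := by
      calc ρ m' ≤ ρ (m + 1) := pow_le_pow_of_le_one (by norm_num) (by norm_num) hmm
        _ = ρ m / 8 := by simp only [ρ, pow_succ]; ring
    have h4 := dist_triangle_left (ρ m • unit₀) 0 x
    have h5 := dist_triangle x y 0
    rw [dist_zero_right, norm_smul, norm_unit₀, mul_one, Real.norm_of_nonneg (hρ m).le,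
      dist_zero_right] at h4
    rw [dist_zero_right, dist_zero_right] at h5
    linarith [hρ m]
  set S : Set Hil := insert 0 (⋃ m, G m)
  refine ⟨S, 1 + 2 * (N * N * (N * N)), Set.mem_insert _ _, fun η hη => ?_, ?_, ?_⟩
  · obtain ⟨n, hn⟩ := exists_pow_lt_of_lt_one (x := η / 2) (by linarith)
      (by norm_num : (1 / 8 : ℝ) < 1)
    refine ((Finset.range n).finite_toSet.biUnion fun m _ =>
      ((F m).finite_toSet.image (φ m))).subset fun x hx => ?_
    obtain ⟨hxS, hxn⟩ := hx
    rcases hxS with rfl | hxS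
    · rw [norm_zero] at hxn; linarith
    obtain ⟨m, hm⟩ := Set.mem_iUnion.1 hxS
    refine Set.mem_biUnion (Finset.mem_coe.2 (Finset.mem_range.2 ?_)) hm
    by_contra hmn
    have h1 : ρ m ≤ ρ n := pow_le_pow_of_le_one (by norm_num) (by norm_num) (not_lt.1 hmn)
    linarith [hnorm m x hm, show ρ n < η / 2 from hn]
  · intro x _ r hr
    set P : Set ℕ := {m | r / 4 < ρ m ∧ ∃ y ∈ G m, dist y x ≤ r}
    have htail : ∀ᶠ n in Filter.atTop, ρ n ≤ r / 4 :=
      (tendsto_pow_atTop_nhds_zero_of_lt_one (by norm_num) (by norm_num)).eventually_le_const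
        (by linarith)
    obtain ⟨n₀, hn₀⟩ := htail.exists
    have hPf : P.Finite := (Finset.range n₀).finite_toSet.subset fun m hm => by
      rw [Finset.mem_coe, Finset.mem_range]
      by_contra hmn
      exact (not_le.2 hm.1) ((pow_le_pow_of_le_one (by norm_num) (by norm_num) (not_lt.1 hmn) :
        ρ m ≤ ρ n₀).trans hn₀)
    set Q := hPf.toFinset
    have key : ∀ i ∈ Q, ∀ j ∈ Q, i < j → j = i + 1 := by
      intro i hi j hj hij
      rw [Set.Finite.mem_toFinset] at hi hj
      obtain ⟨-, y, hy, hyx⟩ := hi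
      obtain ⟨hj1, y', hy', hy'x⟩ := hj
      have h1 := hsep i j hij y hy y' hy'
      by_contra hne'
      have h2 : ρ j ≤ ρ (i + 2) := pow_le_pow_of_le_one (by norm_num) (by norm_num) (by omega)
      have h3 : ρ (i + 2) = ρ i / 64 := by simp only [ρ, pow_add]; ring
      linarith [dist_triangle_right y y' x]
    have hQ : Q.card ≤ 2 := by
      rcases Q.eq_empty_or_nonempty with he | hne'
      · simp [he]
      refine (Finset.card_le_card (t := {Q.min' hne', Q.min' hne' + 1}) fun j hj => ?_).trans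
        Finset.card_le_two
      rcases (Q.min'_le j hj).eq_or_lt with h | h
      · simp [h]
      · simp [key _ (Q.min'_mem hne') j hj h]
    have hcov : ∀ m : ℕ, ∃ t : Finset Hil, m ∈ Q → t.card ≤ N * N * (N * N) ∧ ↑t ⊆ S ∧
        ∀ y ∈ G m, dist y x ≤ r → ∃ e ∈ t, dist y e ≤ r / 2 := by
      intro m
      by_cases hm : m ∈ Q
      swap
      · exact ⟨∅, fun h => absurd h hm⟩
      obtain ⟨-, -, ⟨z, hz, rfl⟩, hzx⟩ := hPf.mem_toFinset.1 hm
      have hcm := hc m
      obtain ⟨t1, ht1, ht1s, ht1c⟩ := hFd m z hz (2 * r / c m) (by positivity)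
      have h2 : ∀ e : Hil, ∃ u : Finset Hil, e ∈ t1 → u.card ≤ N * N ∧ ↑u ⊆ (↑(F m) : Set Hil) ∧
          ∀ y ∈ (↑(F m) : Set Hil), dist y e ≤ r / c m →
            ∃ e' ∈ u, dist y e' ≤ r / (2 * c m) := by
        intro e
        by_cases he : e ∈ t1
        · obtain ⟨u, hu1, hu2, hu3⟩ := hFd m e (ht1s he) (r / c m) (by positivity)
          exact ⟨u, fun _ => ⟨hu1, hu2, fun y hy hd => by
            obtain ⟨e', he', hd'⟩ := hu3 y hy hd
            exact ⟨e', he', hd'.trans_eq (by rw [div_div, mul_comm])⟩⟩⟩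
        · exact ⟨∅, fun h => absurd h he⟩
      choose u hu using h2
      refine ⟨(t1.biUnion u).image (φ m), fun _ => ⟨?_, ?_, ?_⟩⟩
      · calc ((t1.biUnion u).image (φ m)).card ≤ ∑ e ∈ t1, (u e).card :=
              Finset.card_image_le.trans Finset.card_biUnion_le
          _ ≤ t1.card * (N * N) := Finset.sum_le_card_nsmul _ _ _ fun e he => (hu e he).1
          _ ≤ N * N * (N * N) := Nat.mul_le_mul_right _ ht1
      · intro a ha
        obtain ⟨w, hw, rfl⟩ := Finset.mem_image.1 ha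
        obtain ⟨e, he, hwe⟩ := Finset.mem_biUnion.1 hw
        exact Or.inr (Set.mem_iUnion.2 ⟨m, w, (hu e he).2.1 hwe, rfl⟩)
      · rintro - ⟨y, hy, rfl⟩ hyx
        have h3 : dist y z ≤ 2 * r / c m := by
          rw [le_div_iff₀ hcm, mul_comm, ← hφ]
          linarith [dist_triangle_right (φ m y) (φ m z) x]
        obtain ⟨e, he, hye⟩ := ht1c y hy h3
        obtain ⟨e', he', hye'⟩ := (hu e he).2.2 y hy (hye.trans_eq (by ring))
        refine ⟨φ m e', Finset.mem_image_of_mem _ (Finset.mem_biUnion.2 ⟨e, he, he'⟩), ?_⟩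
        rw [hφ]
        calc c m * dist y e' ≤ c m * (r / (2 * c m)) := mul_le_mul_of_nonneg_left hye' hcm.le
          _ = r / 2 := by field_simp
    choose T hT using hcov
    refine ⟨insert 0 (Q.biUnion T), ?_, ?_, fun y hy hd => ?_⟩
    · calc (insert 0 (Q.biUnion T)).card ≤ (∑ m ∈ Q, (T m).card) + 1 :=
            (Finset.card_insert_le _ _).trans (Nat.add_le_add_right Finset.card_biUnion_le 1)
        _ ≤ Q.card * (N * N * (N * N)) + 1 :=
            Nat.add_le_add_right (Finset.sum_le_card_nsmul _ _ _ fun m hm => (hT m hm).1) 1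
        _ ≤ 1 + 2 * (N * N * (N * N)) := by
            have := Nat.mul_le_mul_right (N * N * (N * N)) hQ; omega
    · intro a ha
      rcases Finset.mem_insert.1 ha with rfl | ha
      · exact Set.mem_insert _ _
      · obtain ⟨m, hm, hma⟩ := Finset.mem_biUnion.1 ha
        exact (hT m hm).2.1 hma
    · rcases hy with rfl | hy
      · exact ⟨0, Finset.mem_insert_self _ _, by rw [dist_self]; linarith⟩
      obtain ⟨m, hm⟩ := Set.mem_iUnion.1 hy
      by_cases hρr : ρ m ≤ r / 4
      · refine ⟨0, Finset.mem_insert_self _ _, ?_⟩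
        rw [dist_zero_right]
        linarith [hnorm m y hm]
      · have hmQ : m ∈ Q := hPf.mem_toFinset.2 ⟨not_le.1 hρr, y, hm, hd⟩
        obtain ⟨e, he, hye⟩ := (hT m hmQ).2.2 y hm hd
        exact ⟨e, Finset.mem_insert_of_mem (Finset.mem_biUnion.2 ⟨m, hmQ, he⟩), hye⟩
  · intro k D hE
    obtain ⟨f, a, ha, hf⟩ := hE
    set m := max k ⌈D⌉₊
    refine hFe m (Embeds.mono (k := k) (D := D) ⟨fun y => f (φ m y), a * c m, mul_pos ha (hc m),
      fun y hy z hz => ?_⟩ (le_max_left _ _) ?_)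
    · have h := hf (φ m y) (Or.inr (Set.mem_iUnion.2 ⟨m, y, hy, rfl⟩)) (φ m z)
        (Or.inr (Set.mem_iUnion.2 ⟨m, z, hz, rfl⟩))
      rw [hφ] at h
      exact ⟨by linarith [h.1], by linarith [h.2]⟩
    · exact (Nat.le_ceil D).trans (by exact_mod_cast le_max_right k ⌈D⌉₊)

/-- Every doubling subset embeds. -/
def Qualitative (Hil : Type) [NormedAddCommGroup Hil] : Prop :=
  ∀ (s : Set Hil) (N : ℕ), Doubling s N → ∃ (k : ℕ) (D : ℝ), Embeds s k D

/-- Dimension and distortion depend on the doubling constant alone. -/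
def Uniform (Hil : Type) [NormedAddCommGroup Hil] : Prop :=
  ∀ N : ℕ, ∃ (k : ℕ) (D : ℝ), ∀ s : Set Hil, Doubling s N → Embeds s k D

/-- A point and a sequence tending to it. -/
def Accum (s : Set Hil) : Prop :=
  0 ∈ s ∧ ∀ η : ℝ, 0 < η → {x ∈ s | η ≤ ‖x‖}.Finite

/-- Such doubling sets embed. -/
def Sparse (Hil : Type) [NormedAddCommGroup Hil] : Prop :=
  ∀ (s : Set Hil) (N : ℕ), Accum s → Doubling s N → ∃ (k : ℕ) (D : ℝ), Embeds s k D

/-- The three forms of the question are equivalent. -/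
theorem result : ∀ (H : Type) [NormedAddCommGroup H] [NormedSpace ℝ H] [Nontrivial H],
    [Qualitative H, Uniform H, Sparse H].TFAE := by
  intro H _ _ _
  tfae_have 1 → 3 := fun h s N _ hs => h s N hs
  tfae_have 2 → 1 := fun h s N hs => by
    obtain ⟨k, D, hk⟩ := h N
    exact ⟨k, D, hk s hs⟩
  tfae_have 3 → 2 := by
    intro h N
    by_contra hc
    simp only [not_exists, not_forall, exists_prop] at hc
    obtain ⟨S, M, h0, hfin, hd, hne⟩ := glue hc
    obtain ⟨k, D, hE⟩ := h S M ⟨h0, hfin⟩ hd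
    exact hne k D hE
  tfae_finish

end Vale.Agent.Results.P208.UniformForm
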